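import Mathlib

/-!
Statement level definitions for the stable Morse form of the Arnold conjecture.
-/

open scoped Manifold ContDiff
open Set

noncomputable section

namespace Vale.Agent.P265

/-- Euclidean space. -/
abbrev Eu (k : ℕ) : Type := EuclideanSpace ℝ (Fin k)

variable {E : Type} [NormedAddCommGroup E] [NormedSpace ℝ E] {M : Type} [TopologicalSpace M]
  [ChartedSpace E M]

/-- The expression, in the chart at `x`, of a field `Ω` of bilinear forms on tangent spaces. -/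
def inChart (Ω : M → E →L[ℝ] E →L[ℝ] ℝ) (x : M) (η : E) : E →L[ℝ] E →L[ℝ] ℝ :=
  (Ω ((chartAt E x).symm η)).bilinearComp
    (show E →L[ℝ] E from mfderiv 𝓘(ℝ, E) 𝓘(ℝ, E) (chartAt E x).symm η)
    (show E →L[ℝ] E from mfderiv 𝓘(ℝ, E) 𝓘(ℝ, E) (chartAt E x).symm η)

/-- `Ω` is a smooth, closed, nondegenerate two-form. -/
structure IsSymplectic (Ω : M → E →L[ℝ] E →L[ℝ] ℝ) : Prop where
  alt : ∀ x v, Ω x v v = 0
  nondeg : ∀ x v, (∀ w, Ω x v w = 0) → v = 0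
  smooth : ∀ x, ContDiffOn ℝ ∞ (inChart Ω x) (chartAt E x).target
  closed : ∀ x, ∀ η ∈ (chartAt E x).target, ∀ u v w,
    fderiv ℝ (inChart Ω x) η u v w + fderiv ℝ (inChart Ω x) η v w u +
      fderiv ℝ (inChart Ω x) η w u v = 0

/-- `H` is a smooth function on `(ℝ / ℤ) × M` and `φ` is its Hamiltonian flow:
`φ (0, x) = x` and the velocity `X` of `t ↦ φ (t, x)` satisfies `Ω (X, ·) = d H_t`. -/
structure IsHamFlow (Ω : M → E →L[ℝ] E →L[ℝ] ℝ) (H : ℝ × M → ℝ) (φ : ℝ × M → M) : Prop where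
  smoothH : ContMDiff (𝓘(ℝ, ℝ).prod 𝓘(ℝ, E)) 𝓘(ℝ, ℝ) ∞ H
  periodic : ∀ t x, H (t + 1, x) = H (t, x)
  smooth : ContMDiff (𝓘(ℝ, ℝ).prod 𝓘(ℝ, E)) 𝓘(ℝ, E) ∞ φ
  zero : ∀ x, φ (0, x) = x
  eq : ∀ t x (w : E), Ω (φ (t, x)) (mfderiv 𝓘(ℝ, ℝ) 𝓘(ℝ, E) (fun s => φ (s, x)) t (1 : ℝ)) w =
    mfderiv 𝓘(ℝ, E) 𝓘(ℝ, ℝ) (fun y => H (t, y)) (φ (t, x)) w

variable (E) in
/-- All fixed points of the time one map are nondegenerate: `1` is not an eigenvalue of the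
differential. -/
def NondegFix (φ : ℝ × M → M) : Prop :=
  ∀ x, φ (1, x) = x → ∀ v : E,
    (show E →L[ℝ] E from mfderiv 𝓘(ℝ, E) 𝓘(ℝ, E) (fun y => φ (1, y)) x) v = v → v = 0

/-- Fixed points of the time one map whose loop is contractible. -/
def Fix0 (φ : ℝ × M → M) : Set M :=
  {x | φ (1, x) = x ∧ ∃ (h : C(unitInterval × unitInterval, M)) (y : M),
    (∀ t, h (0, t) = φ (t, x)) ∧ (∀ s, h (s, 0) = h (s, 1)) ∧ ∀ t, h (1, t) = y}

section aux
variable {Z : Type} [NormedAddCommGroup Z] [NormedSpace ℝ Z]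

variable (E) in
/-- Critical points of a function on `M × Z`. -/
def critSet (F : M × Z → ℝ) : Set (M × Z) :=
  {p | mfderiv (𝓘(ℝ, E).prod 𝓘(ℝ, Z)) 𝓘(ℝ, ℝ) F p = 0}

variable (E) in
/-- A smooth function on `M × Z` all of whose critical points have a nondegenerate Hessian (in
the chart at the point). -/
structure IsMorse (F : M × Z → ℝ) : Prop where
  smooth : ContMDiff (𝓘(ℝ, E).prod 𝓘(ℝ, Z)) 𝓘(ℝ, ℝ) ∞ F
  nondeg : ∀ p ∈ critSet E F, ∀ v : E × Z,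
    (∀ w, fderiv ℝ (fderiv ℝ (fun q : E × Z => F ((chartAt E p.1).symm q.1, q.2)))
      (chartAt E p.1 p.1, p.2) v w = 0) → v = 0

/-- `F` agrees with a nondegenerate quadratic form outside a ball of `Z`. -/
def QuadAtInf (F : M × Z → ℝ) : Prop :=
  ∃ (Q : QuadraticForm ℝ Z) (R : ℝ), (∀ z, (∀ w, QuadraticMap.polar Q z w = 0) → z = 0) ∧
    0 < R ∧ ∀ x z, R ≤ ‖z‖ → F (x, z) = Q z

end aux

variable (E M) in
/-- The stable Morse number. -/
def stableMorse : ℕ∞ :=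
  ⨅ (k : ℕ) (F : M × Eu k → ℝ) (_ : IsMorse E F) (_ : 0 < k → QuadAtInf F), (critSet E F).encard

end Vale.Agent.P265
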